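import Mathlib

/-!
Counting symmetric sign matrices with two rows equal up to sign.
A symmetric sign matrix on an index type `V` is encoded by a function `Sym2 V → Bool`.
-/

namespace Vale.Agent.Lib.Helper5.SymSign

open Finset

section general

variable {V : Type*} [Fintype V] [DecidableEq V]

/-- `sg e b` is `b` when `e` is true and `!b` otherwise. -/
def sg (e b : Bool) : Bool := if e then b else !b

lemma sg_sg (e b : Bool) : sg e (sg e b) = b := by
  cases e <;> cases b <;> rfl

/-- The event that row `i` equals (`e = true`) or is opposite to (`e = false`) row `j`. -/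
def Ev (i j : V) (e : Bool) : Finset (Sym2 V → Bool) :=
  Finset.univ.filter fun f => ∀ k, f s(i, k) = sg e (f s(j, k))

lemma mem_Ev {i j : V} {e : Bool} {f : Sym2 V → Bool} :
    f ∈ Ev i j e ↔ ∀ k, f s(i, k) = sg e (f s(j, k)) := by
  simp [Ev]

lemma Ev_symm (i j : V) (e : Bool) : Ev i j e = Ev j i e := by
  ext f
  simp only [mem_Ev]
  constructor
  · intro h k
    rw [h k, sg_sg]
  · intro h k
    rw [h k, sg_sg]

/-- Restriction of a function on pairs to the pairs avoiding `k`. -/
def res (k : V) (f : Sym2 V → Bool) : Sym2 {v : V // v ≠ k} → Bool :=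
  fun p => f (p.map Subtype.val)

lemma res_injOn (k l : V) (hkl : l ≠ k) (e : Bool) :
    Set.InjOn (res k) (Ev k l e : Set (Sym2 V → Bool)) := by
  intro f hf g hg hfg
  have hf' := mem_Ev.1 (Finset.mem_coe.1 hf)
  have hg' := mem_Ev.1 (Finset.mem_coe.1 hg)
  have h1 : ∀ a b : V, a ≠ k → b ≠ k → f s(a, b) = g s(a, b) := by
    intro a b ha hb
    have := congr_fun hfg s(⟨a, ha⟩, ⟨b, hb⟩)
    simpa [res] using this
  have h2 : ∀ b : V, b ≠ k → f s(k, b) = g s(k, b) := by
    intro b hb
    rw [hf' b, hg' b, h1 l b hkl hb]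
  have h3 : f s(k, k) = g s(k, k) := by
    rw [hf' k, hg' k, Sym2.eq_swap, h2 l hkl]
  funext p
  induction p using Sym2.ind with
  | _ a b =>
    by_cases ha : a = k
    · subst ha
      by_cases hb : b = a
      · subst hb; exact h3
      · exact h2 b hb
    · by_cases hb : b = k
      · subst hb; rw [Sym2.eq_swap]; exact h2 a ha
      · exact h1 a b ha hb

lemma card_Ev_le (k l : V) (hkl : l ≠ k) (e : Bool) :
    (Ev k l e).card ≤ 2 ^ Fintype.card (Sym2 {v : V // v ≠ k}) := by
  have h := Finset.card_le_card_of_injOn (t := (Finset.univ : Finset (Sym2 {v : V // v ≠ k} → Bool)))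
    (res k) (fun f _ => Finset.mem_univ _) (res_injOn k l hkl e)
  simpa using h

/-- Extension of a function on the pairs avoiding `i` to an element of `Ev i j e`. -/
def ext (i j : V) (hij : j ≠ i) (e : Bool) (h : Sym2 {v : V // v ≠ i} → Bool) : Sym2 V → Bool :=
  Sym2.lift ⟨fun a b =>
    if ha : a = i then
      if hb : b = i then h s(⟨j, hij⟩, ⟨j, hij⟩) else sg e (h s(⟨j, hij⟩, ⟨b, hb⟩))
    else
      if hb : b = i then sg e (h s(⟨j, hij⟩, ⟨a, ha⟩)) else h s(⟨a, ha⟩, ⟨b, hb⟩),
    by
      intro a b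
      by_cases ha : a = i <;> by_cases hb : b = i
      · simp [ha, hb]
      · simp [ha, hb]
      · simp [ha, hb]
      · simp only [ha, hb, dite_false]
        rw [Sym2.eq_swap]⟩

omit [Fintype V] in
lemma ext_mk (i j : V) (hij : j ≠ i) (e : Bool) (h : Sym2 {v : V // v ≠ i} → Bool) (a b : V) :
    ext i j hij e h s(a, b) =
      if ha : a = i then
        if hb : b = i then h s(⟨j, hij⟩, ⟨j, hij⟩) else sg e (h s(⟨j, hij⟩, ⟨b, hb⟩))
      else
        if hb : b = i then sg e (h s(⟨j, hij⟩, ⟨a, ha⟩)) else h s(⟨a, ha⟩, ⟨b, hb⟩) := rfl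

lemma ext_mem (i j : V) (hij : j ≠ i) (e : Bool) (h : Sym2 {v : V // v ≠ i} → Bool) :
    ext i j hij e h ∈ Ev i j e := by
  rw [mem_Ev]
  intro k
  by_cases hk : k = i
  · subst hk
    rw [ext_mk, ext_mk]
    simp [hij, sg_sg]
  · rw [ext_mk, ext_mk]
    simp [hij, hk]

omit [Fintype V] in
lemma res_ext (i j : V) (hij : j ≠ i) (e : Bool) (h : Sym2 {v : V // v ≠ i} → Bool) :
    res i (ext i j hij e h) = h := by
  funext p
  induction p using Sym2.ind with
  | _ a b =>
    obtain ⟨a, ha⟩ := a
    obtain ⟨b, hb⟩ := b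
    simp only [res, Sym2.map_mk]
    rw [ext_mk]
    simp [ha, hb]

lemma le_card_Ev (i j : V) (hij : j ≠ i) (e : Bool) :
    2 ^ Fintype.card (Sym2 {v : V // v ≠ i}) ≤ (Ev i j e).card := by
  have h := Finset.card_le_card_of_injOn (s := (Finset.univ : Finset (Sym2 {v : V // v ≠ i} → Bool)))
    (ext i j hij e) (fun f _ => Finset.mem_coe.2 (ext_mem i j hij e f))
    (fun f _ g _ hfg => by
      have := congr_arg (res i) hfg
      rwa [res_ext, res_ext] at this)
  simpa using h

lemma res_mem (i j k : V) (hi : i ≠ k) (hj : j ≠ k) (e : Bool) (f : Sym2 V → Bool)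
    (hf : f ∈ Ev i j e) : res k f ∈ Ev (⟨i, hi⟩ : {v : V // v ≠ k}) ⟨j, hj⟩ e := by
  rw [mem_Ev] at hf ⊢
  intro m
  simp only [res, Sym2.map_mk]
  exact hf m.1

/-- Two distinct pair events intersect in few functions. -/
lemma card_inter_le (i j k l : V) (hij : j ≠ i) (hi : i ≠ k) (hj : j ≠ k) (hkl : l ≠ k)
    (e d : Bool) :
    (Ev i j e ∩ Ev k l d).card ≤
      2 ^ Fintype.card (Sym2 {w : {v : V // v ≠ k} // w ≠ ⟨i, hi⟩}) := by
  have hij' : (⟨j, hj⟩ : {v : V // v ≠ k}) ≠ ⟨i, hi⟩ := by
    intro h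
    exact hij (congr_arg Subtype.val h)
  refine le_trans ?_ (card_Ev_le (⟨i, hi⟩ : {v : V // v ≠ k}) ⟨j, hj⟩ hij' e)
  refine Finset.card_le_card_of_injOn (res k) ?_ ?_
  · intro f hf
    rw [Finset.mem_coe, Finset.mem_inter] at hf
    exact Finset.mem_coe.2 (res_mem i j k hi hj e f hf.1)
  · intro f hf g hg hfg
    rw [Finset.mem_coe, Finset.mem_inter] at hf hg
    exact res_injOn k l hkl d (Finset.mem_coe.2 hf.2) (Finset.mem_coe.2 hg.2) hfg

lemma inter_opp_eq_empty (i j : V) : Ev i j true ∩ Ev i j false = ∅ := by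
  ext f
  simp only [Finset.mem_inter, mem_Ev, Finset.notMem_empty, iff_false, not_and]
  intro h1 h2
  have a := h1 i
  have b := h2 i
  rw [a] at b
  cases hf : f s(j, i) <;> simp [sg, hf] at b

lemma card_ne (α : Type*) [Fintype α] [DecidableEq α] (a : α) :
    Fintype.card {x : α // x ≠ a} = Fintype.card α - 1 := by
  rw [Fintype.card_subtype_compl]
  simp

end general

section bonferroni

variable {ι α : Type*} [DecidableEq ι] [DecidableEq α]

/-- A Bonferroni lower bound for a family of finite sets with uniformly bounded sizes. -/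
lemma bonf (E : ι → Finset α) (s t : ℕ) (I : Finset ι)
    (hs : ∀ a ∈ I, s ≤ (E a).card)
    (ht : ∀ a ∈ I, ∀ b ∈ I, a ≠ b → (E a ∩ E b).card ≤ t) :
    I.card * s ≤ (I.biUnion E).card + I.card.choose 2 * t := by
  induction I using Finset.induction_on with
  | empty => simp
  | insert c I hc ih =>
    have ih' := ih (fun a ha => hs a (Finset.mem_insert_of_mem ha))
      (fun a ha b hb hab => ht a (Finset.mem_insert_of_mem ha) b (Finset.mem_insert_of_mem hb) hab)
    rw [Finset.card_insert_of_notMem hc, Finset.biUnion_insert]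
    have h1 := Finset.card_union_add_card_inter (E c) (I.biUnion E)
    have h2 : (E c ∩ I.biUnion E).card ≤ I.card * t := by
      rw [Finset.inter_biUnion]
      refine le_trans Finset.card_biUnion_le ?_
      calc ∑ b ∈ I, (E c ∩ E b).card ≤ ∑ b ∈ I, t :=
            Finset.sum_le_sum (fun b hb => ht c (Finset.mem_insert_self c I) b
              (Finset.mem_insert_of_mem hb) (by rintro rfl; exact hc hb))
        _ = I.card * t := by simp
    have h3 := hs c (Finset.mem_insert_self c I)
    have h4 : (I.card + 1).choose 2 = I.card + I.card.choose 2 := by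
      rw [Nat.choose_succ_succ' I.card 1]; simp
    rw [h4]
    nlinarith

end bonferroni

section fin

variable {n : ℕ}

/-- The symmetric sign matrix encoded by `f`. -/
def toMat (f : Sym2 (Fin n) → Bool) : Matrix (Fin n) (Fin n) ℤ :=
  Matrix.of fun i j => if f s(i, j) then 1 else -1

lemma toMat_apply (f : Sym2 (Fin n) → Bool) (i j : Fin n) :
    toMat f i j = if f s(i, j) then 1 else -1 := rfl

lemma toMat_isSymm (f : Sym2 (Fin n) → Bool) : (toMat f).IsSymm := by
  ext i j
  rw [Matrix.transpose_apply, toMat_apply, toMat_apply, Sym2.eq_swap]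

lemma toMat_sign (f : Sym2 (Fin n) → Bool) (i j : Fin n) :
    toMat f i j = 1 ∨ toMat f i j = -1 := by
  rw [toMat_apply]; split_ifs <;> simp

lemma toMat_injective : Function.Injective (toMat (n := n)) := by
  intro f g h
  funext p
  induction p using Sym2.ind with
  | _ a b =>
    have := congr_fun (congr_fun h a) b
    rw [toMat_apply, toMat_apply] at this
    cases hf : f s(a, b) <;> cases hg : g s(a, b) <;> simp [hf, hg] at this <;> rfl

lemma exists_toMat (A : Matrix (Fin n) (Fin n) ℤ) (hs : A.IsSymm)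
    (h : ∀ i j, A i j = 1 ∨ A i j = -1) : ∃ f, toMat f = A := by
  refine ⟨Sym2.lift ⟨fun i j => decide (A i j = 1), fun i j => by
    show decide (A i j = 1) = decide (A j i = 1)
    rw [hs.apply i j]⟩, ?_⟩
  ext i j
  rw [toMat_apply, Sym2.lift_mk]
  rcases h i j with h1 | h1 <;> simp [h1]

lemma det_toMat_eq_zero (i j : Fin n) (hij : i ≠ j) (e : Bool) (f : Sym2 (Fin n) → Bool)
    (hf : f ∈ Ev i j e) : (toMat f).det = 0 := by
  rw [mem_Ev] at hf
  cases e with
  | true =>
    refine Matrix.det_zero_of_row_eq hij ?_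
    funext k
    rw [toMat_apply, toMat_apply, hf k]; rfl
  | false =>
    rw [← Matrix.det_updateRow_add_self (toMat f) hij]
    refine Matrix.det_eq_zero_of_row_eq_zero i ?_
    intro k
    rw [Matrix.updateRow_self, Pi.add_apply, toMat_apply, toMat_apply, hf k]
    cases f s(j, k) <;> simp [sg]

/-- Index set of the pair events: `(⟨j, i⟩, e)` with `i < j`. -/
def idx (n : ℕ) : Finset ((Σ _ : Fin n, Fin n) × Bool) :=
  ((Finset.univ : Finset (Fin n)).sigma fun j => Finset.Iio j) ×ˢ Finset.univ

lemma card_idx (n : ℕ) : (idx n).card = n * (n - 1) := by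
  rw [idx, Finset.card_product, Finset.card_sigma]
  simp only [Fin.card_Iio, Finset.card_univ, Fintype.card_bool]
  rw [Fin.sum_univ_eq_sum_range (fun i => i) n, Finset.sum_range_id_mul_two]

lemma mem_idx {n : ℕ} {a : (Σ _ : Fin n, Fin n) × Bool} : a ∈ idx n ↔ a.1.2 < a.1.1 := by
  simp [idx]

/-- The family of pair events. -/
def fam (n : ℕ) (a : (Σ _ : Fin n, Fin n) × Bool) : Finset (Sym2 (Fin n) → Bool) :=
  Ev a.1.1 a.1.2 a.2

lemma le_card_fam (a : (Σ _ : Fin n, Fin n) × Bool) (ha : a ∈ idx n) :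
    2 ^ n.choose 2 ≤ (fam n a).card := by
  obtain ⟨⟨j, i⟩, e⟩ := a
  rw [mem_idx] at ha
  simp only at ha
  have hij : i ≠ j := ne_of_lt ha
  have h := le_card_Ev j i hij e
  rw [Sym2.card, card_ne, Fintype.card_fin] at h
  have hn : n - 1 + 1 = n := by
    have := j.isLt
    omega
  rw [hn] at h
  exact h

lemma card_fam_inter_le (a b : (Σ _ : Fin n, Fin n) × Bool) (ha : a ∈ idx n) (hb : b ∈ idx n)
    (hab : a ≠ b) : (fam n a ∩ fam n b).card ≤ 2 ^ (n - 1).choose 2 := by
  obtain ⟨⟨j, i⟩, e⟩ := a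
  obtain ⟨⟨l, k⟩, d⟩ := b
  rw [mem_idx] at ha hb
  simp only at ha hb
  simp only [fam]
  have hij : i ≠ j := ne_of_lt ha
  have hkl : k ≠ l := ne_of_lt hb
  have hn : n - 1 - 1 + 1 = n - 1 := by
    have h1 := j.isLt
    have h2 : (i : ℕ) < j := ha
    omega
  have key : ∀ (k' l' : Fin n), j ≠ k' → i ≠ k' → l' ≠ k' →
      (Ev j i e ∩ Ev k' l' d).card ≤ 2 ^ (n - 1).choose 2 := by
    intro k' l' h1 h2 h3
    have h := card_inter_le j i k' l' hij h1 h2 h3 e d
    rw [Sym2.card, card_ne, card_ne, Fintype.card_fin, hn] at h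
    exact h
  by_cases hp : j = l ∧ i = k
  · obtain ⟨rfl, rfl⟩ := hp
    have hed : e ≠ d := by
      rintro rfl
      exact hab rfl
    have hemp : Ev j i e ∩ Ev j i d = ∅ := by
      cases e <;> cases d
      · exact absurd rfl hed
      · rw [Finset.inter_comm]; exact inter_opp_eq_empty j i
      · exact inter_opp_eq_empty j i
      · exact absurd rfl hed
    rw [hemp]
    simp
  · by_cases hl : j ≠ l ∧ i ≠ l
    · exact key l k hl.1 hl.2 hkl
    · have hk : j ≠ k ∧ i ≠ k := by
        constructor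
        · rintro rfl
          apply hl
          constructor
          · rintro rfl
            exact absurd hb (lt_irrefl _)
          · rintro rfl
            exact absurd (lt_trans ha hb) (lt_irrefl _)
        · rintro rfl
          apply hl
          constructor
          · rintro rfl
            exact hp ⟨rfl, rfl⟩
          · rintro rfl
            exact absurd hb (lt_irrefl _)
      rw [Ev_symm l k d]
      exact key k l hk.1 hk.2 (Ne.symm hkl)

/-- The union of all pair events. -/
def bad (n : ℕ) : Finset (Sym2 (Fin n) → Bool) := (idx n).biUnion (fam n)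

lemma card_bad_ge (n : ℕ) :
    n * (n - 1) * 2 ^ n.choose 2 ≤
      (bad n).card + (n * (n - 1)).choose 2 * 2 ^ (n - 1).choose 2 := by
  have h := bonf (fam n) (2 ^ n.choose 2) (2 ^ (n - 1).choose 2) (idx n)
    (fun a ha => le_card_fam a ha) (fun a ha b hb hab => card_fam_inter_le a b ha hb hab)
  rw [card_idx] at h
  exact h

lemma det_eq_zero_of_mem_bad (f : Sym2 (Fin n) → Bool) (hf : f ∈ bad n) : (toMat f).det = 0 := by
  rw [bad, Finset.mem_biUnion] at hf
  obtain ⟨a, ha, hfa⟩ := hf
  rw [mem_idx] at ha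
  exact det_toMat_eq_zero a.1.1 a.1.2 (ne_of_gt ha) a.2 f hfa

end fin

end Vale.Agent.Lib.Helper5.SymSign
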